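import Vale.Agent.P174.Abelian
import Vale.Agent.P174.Rational
import Vale.Agent.P174.Final

open Vale.Agent.P174

universe u

theorem Vale.Agent.Results.P174.A0_Combined.result (G : Type u) [Group G] :
    ((∀ K : Subgroup G, K.FG → (∀ ψ : K →* Multiplicative ℤ, ψ = 1) → HowieProperty K) →
      HowieProperty G) ∧
    (∀ (p : ℕ) [Fact p.Prime],
      (∀ K : Subgroup G, K.FG → (∀ ψ : K →* Multiplicative (ZMod p), ψ = 1) →
        HowiePropertyMod p K) → HowiePropertyMod p G) ∧
    (∀ (N : Subgroup G) [N.Normal], LocallyIndicable (G ⧸ N) →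
      (HowieProperty N ∨ ∀ a ∈ N, ∀ b ∈ N, a * b = b * a) → HowieProperty G) :=
  ⟨fun h => howie_of_subgroups G h, fun p _ h => howieMod_of_subgroups p G h,
    fun N _ hQ hN => hN.elim (fun h => howie_extension G N hQ h)
      (fun h => howie_abelian_by_li G N h hQ)⟩
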