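import Vale.Agent.P174.Abelian

open Vale.Agent.P174

universe u

theorem Vale.Agent.Results.P174.AbelianByLI.result (G : Type u) [Group G] (N : Subgroup G)
    [N.Normal] (hN : ∀ a ∈ N, ∀ b ∈ N, a * b = b * a) (hQ : LocallyIndicable (G ⧸ N)) :
    HowieProperty G :=
  howie_abelian_by_li G N hN hQ
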