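import Vale.Agent.P174.Final

open Vale.Agent.P174

universe u

theorem Vale.Agent.Results.P174.ModPReduction.result (p : ℕ) [Fact p.Prime] (G : Type u) [Group G]
    (h : ∀ K : Subgroup G, K.FG → (∀ ψ : K →* Multiplicative (ZMod p), ψ = 1) →
      HowiePropertyMod p K) : HowiePropertyMod p G :=
  howieMod_of_subgroups p G h
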