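import Vale.Agent.P174.Rational

open Vale.Agent.P174

universe u

theorem Vale.Agent.Results.P174.NoZQuotient.result (G : Type u) [Group G]
    (h : ∀ K : Subgroup G, K.FG → (∀ ψ : K →* Multiplicative ℤ, ψ = 1) → HowieProperty K) :
    HowieProperty G :=
  howie_of_subgroups G h
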