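import Vale.Agent.P174.Rational

open Vale.Agent.P174

universe u

theorem Vale.Agent.Results.P174.Z_ExtensionLI.result (G : Type u) [Group G] (N : Subgroup G)
    [N.Normal] (hQ : LocallyIndicable (G ⧸ N)) (hN : HowieProperty N) : HowieProperty G :=
  howie_extension G N hQ hN
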